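import Vale.Agent.P268.T.SkelChain

/-!
# P268, topological half, route V: an explicit gate function of the ray form

`chiPL a c y`: piecewise linear, `0` for `Re y ≤ 0` and near the rays `k < a`, at least `Re y` near
the rays `k ≥ a`.
-/

namespace Vale.Agent.P268.T.H93

open Set Filter Topology

/-- The explicit gate function. -/
noncomputable def chiPL (a : ℕ) (c : List ℕ) (y : ℂ) : ℝ :=
  (c.headD 0 + 2) * max 0 (min (max y.re 0) (4 * (y.im - (a - 3 / 4) * max y.re 0)))

theorem chiPL_smul (a : ℕ) (c : List ℕ) {r : ℝ} (hr : 0 ≤ r) (y : ℂ) :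
    chiPL a c (r • y) = r * chiPL a c y := by
  have h1 : max (r * y.re) 0 = r * max y.re 0 := by
    rw [mul_max_of_nonneg _ _ hr, mul_zero]
  have h2 : (4 : ℝ) * (r * y.im - (a - 3 / 4) * (r * max y.re 0)) =
      r * (4 * (y.im - (a - 3 / 4) * max y.re 0)) := by ring
  have h3 : max 0 (r * min (max y.re 0) (4 * (y.im - (a - 3 / 4) * max y.re 0))) =
      r * max 0 (min (max y.re 0) (4 * (y.im - (a - 3 / 4) * max y.re 0))) := by
    rw [mul_max_of_nonneg _ _ hr, mul_zero]
  unfold chiPL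
  rw [Complex.real_smul, Complex.re_ofReal_mul, Complex.im_ofReal_mul, h1, h2,
    ← mul_min_of_nonneg _ _ hr, h3]
  ring

theorem chiPL_nonneg (a : ℕ) (c : List ℕ) (y : ℂ) : 0 ≤ chiPL a c y :=
  mul_nonneg (by positivity) (le_max_left _ _)

theorem continuous_chiPL (a : ℕ) (c : List ℕ) : Continuous (chiPL a c) := by
  have h1 : Continuous fun y : ℂ => y.re := Complex.continuous_re
  have h2 : Continuous fun y : ℂ => y.im := Complex.continuous_im
  unfold chiPL
  fun_prop

theorem chiPL_eq_zero_of_re {a : ℕ} {c : List ℕ} {y : ℂ} (h : y.re ≤ 0) : chiPL a c y = 0 := by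
  unfold chiPL
  rw [max_eq_right h, max_eq_left (min_le_left _ _), mul_zero]

theorem chiPL_eq_zero {a : ℕ} {c : List ℕ} {y : ℂ} (h0 : 0 ≤ y.re)
    (h : y.im ≤ (a - 3 / 4) * y.re) : chiPL a c y = 0 := by
  unfold chiPL
  rw [max_eq_left h0, max_eq_left ((min_le_right _ _).trans (by linarith)), mul_zero]

theorem chiPL_eq {a : ℕ} {c : List ℕ} {y : ℂ} (h0 : 0 ≤ y.re)
    (h : (a - 1 / 2) * y.re ≤ y.im) : chiPL a c y = (c.headD 0 + 2) * y.re := by
  unfold chiPL
  rw [max_eq_left h0, min_eq_left (by nlinarith), max_eq_right h0]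

/-- **The explicit function is a gate function of the ray form.** -/
theorem rayGateFun_chiPL {d : ℝ} (hd : d ≤ 1 / 4) : RV.RayGateFun d chiPL where
  cont := fun a b c _ => continuous_chiPL a (b :: c)
  hom := fun a b c _ r hr y => chiPL_smul a (b :: c) hr y
  nonneg := fun a b c _ y => chiPL_nonneg a (b :: c) y
  neg := fun a b c _ y hy _ => chiPL_eq_zero_of_re hy.le
  small := by
    intro a b c _ k y hk hy h
    have h1 : (k : ℝ) + 1 ≤ a := by exact_mod_cast hk
    have h2 := (abs_le.mp h).2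
    refine chiPL_eq_zero hy.le ?_
    nlinarith
  big := by
    intro a b c _ k y hk _ hy h
    have h1 : (a : ℝ) ≤ k := by exact_mod_cast hk
    have h2 := (abs_le.mp h).1
    rw [chiPL_eq hy.le (by nlinarith)]
    have h3 : (0 : ℝ) ≤ ((b :: c : List ℕ).headD 0 : ℕ) := Nat.cast_nonneg _
    nlinarith

end Vale.Agent.P268.T.H93
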